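import Mathlib
import Vale.Agent.P110.UF.Defs
import Vale.Agent.P110.UF.Block
import Vale.Agent.P110.UF.Trunc
import Vale.Agent.P110.UF.Round.Main
import Vale.Agent.P110.UF.Pack.Main
import Vale.Agent.P110.UF.Phase.Design
import Vale.Agent.P110.UF.Phase.Estimate
import Vale.Agent.P110.UF.Phase.Fresnel
import Vale.Agent.P110.UF.Phase.Glue

/-!
# P110: ultraflat real Littlewood polynomials exist at every large length
-/

open Vale.Agent.P110.UF

namespace Vale.Agent.Results.P110.Ultraflat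

/-- Real Littlewood polynomials of every large length can be as flat as desired. -/
theorem result :
    ∀ c : ℝ, 0 < c → ∃ N₀ : ℕ, ∀ N : ℕ, N₀ ≤ N → ∃ x : Fin N → ℝ,
      (∀ k, x k = 1 ∨ x k = -1) ∧
      ∀ z : ℂ, ‖z‖ = 1 →
        (1 - c) * Real.sqrt N ≤ ‖∑ k : Fin N, (x k : ℂ) * z ^ (k : ℕ)‖ ∧
          ‖∑ k : Fin N, (x k : ℂ) * z ^ (k : ℕ)‖ ≤ (1 + c) * Real.sqrt N :=
  ultraflat_of round_stmt
    (signal_of trunc_stmt
      (design_of fresnel_stmt estimate_stmt glue_stmt (tiling_stmt block_stmt)))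

end Vale.Agent.Results.P110.Ultraflat
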