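import Vale.Agent.P110.Count

namespace Vale.Agent.Results.P110.UltraflatRare

open Vale.Agent.P110

/-- Almost flat Littlewood polynomials are subexponentially few as the flatness tends to zero. -/
theorem result : ∀ η : ℝ, 0 < η → ∃ ε : ℝ, 0 < ε ∧ ∃ N₀ : ℕ, ∀ N : ℕ, N₀ ≤ N →
    (Nat.card {a : Fin N → Bool // IsFlat ε a} : ℝ) ≤ (2 : ℝ) ^ (η * N) := by
  intro η hη
  have hl2 : 0 < Real.log 2 := Real.log_pos one_lt_two
  set τ : ℝ := η * Real.log 2 with hτdef
  have hτ : 0 < τ := mul_pos hη hl2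
  set x : ℝ := min (τ / 3) (1 / 2) with hxdef
  have hx : 0 < x := lt_min (by linarith) (by norm_num)
  have hx1 : x ≤ 1 := (min_le_right _ _).trans (by norm_num)
  have hlx : 0 < -Real.log x := neg_pos.2 (Real.log_neg hx ((min_le_right _ _).trans_lt (by norm_num)))
  set δ : ℝ := min 1 (τ / (9 * -Real.log x)) with hδdef
  have hδ : 0 < δ := lt_min one_pos (by positivity)
  have hδ1 : δ ≤ 1 := min_le_left _ _
  have hentropy : (3 * δ) ^ 2 / 4 * -Real.log x ≤ τ / 3 := by
    have h1 : δ * (9 * -Real.log x) ≤ τ := by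
      rw [← le_div_iff₀ (by positivity)]
      exact min_le_right _ _
    nlinarith [mul_le_mul_of_nonneg_right hδ1 (mul_nonneg hδ.le hlx.le)]
  -- window length
  set A : ℝ := (32 * (1 + 2 * Real.pi) / δ + 2) with hAdef
  have hA : 0 < A := by positivity
  obtain ⟨m, hm⟩ := exists_nat_gt (max 1 (144 * 4 * A / τ ^ 2))
  have hm1 : (1 : ℝ) < m := lt_of_le_of_lt (le_max_left _ _) hm
  have hm2 : 144 * 4 * A / τ ^ 2 < m := lt_of_le_of_lt (le_max_right _ _) hm
  have hmpos : 0 < m := by exact_mod_cast (lt_trans one_pos hm1)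
  set d : ℝ := δ / (1 + 2 * Real.pi * m) with hddef
  have hd : 0 < d := by positivity
  have hdm : d * (1 + 2 * Real.pi * m) ≤ δ := le_of_eq (by rw [hddef]; field_simp)
  set L : ℕ := ⌈32 / d⌉₊ with hLdef
  have hL : 32 ≤ d * L := by
    have := Nat.le_ceil (32 / d)
    rw [div_le_iff₀ hd] at this
    linarith
  have hLm : (L : ℝ) + 1 ≤ A * m := by
    have h1 : (L : ℝ) < 32 / d + 1 := Nat.ceil_lt_add_one (by positivity)
    have h2 : 32 / d ≤ 32 * (1 + 2 * Real.pi) / δ * m := by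
      have hδne : δ ≠ 0 := hδ.ne'
      rw [hddef, div_div_eq_mul_div, div_mul_eq_mul_div]
      gcongr ?_ / δ
      nlinarith [Real.pi_pos]
    rw [hAdef, add_mul]
    linarith
  have hlogL : 4 * Real.log ((L : ℝ) + 1) / m ≤ τ / 3 := by
    have h1 : Real.log ((L : ℝ) + 1) ≤ 2 * Real.sqrt (A * m) := by
      have h0 : (0 : ℝ) < (L : ℝ) + 1 := by positivity
      have h2 := Real.log_le_sub_one_of_pos (Real.sqrt_pos.2 h0)
      rw [Real.log_sqrt h0.le] at h2
      have h3 := Real.sqrt_le_sqrt hLm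
      linarith
    have hsA : 24 * Real.sqrt (A * m) ≤ τ * m := by
      have h4 : 144 * 4 * A ≤ τ ^ 2 * m := by
        have := (div_lt_iff₀ (by positivity)).1 hm2
        linarith
      calc 24 * Real.sqrt (A * m) = Real.sqrt (24 ^ 2 * (A * m)) := by
            rw [Real.sqrt_mul (by norm_num : (0 : ℝ) ≤ 24 ^ 2), Real.sqrt_sq (by norm_num : (0 : ℝ) ≤ 24)]
        _ ≤ Real.sqrt ((τ * m) ^ 2) := by
            refine Real.sqrt_le_sqrt ?_
            nlinarith [mul_le_mul_of_nonneg_right h4 (le_of_lt (lt_trans one_pos hm1))]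
        _ = τ * m := Real.sqrt_sq (by positivity)
    rw [div_le_iff₀ (by positivity)]
    linarith
  -- analytic radius and flatness
  set R : ℝ := max 4 (max (8 * Real.pi * m + 1) (1024 * (2 * Real.pi * m) ^ 2 / δ)) with hRdef
  have hR : 4 ≤ R := le_max_left _ _
  have hmR : 2 * Real.pi * m < R / 4 := by
    have : 8 * Real.pi * m + 1 ≤ R := (le_max_left _ _).trans (le_max_right _ _)
    linarith
  have hR2 : 512 * (2 * Real.pi * m) ^ 2 / R ≤ δ / 2 := by
    have : 1024 * (2 * Real.pi * m) ^ 2 / δ ≤ R := (le_max_right _ _).trans (le_max_right _ _)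
    rw [div_le_iff₀ hδ] at this
    rw [div_le_iff₀ (by linarith)]
    linarith
  set ε : ℝ := min (δ / 22) (1 / (6 * Real.exp (3 * R))) with hεdef
  have hε : 0 < ε := lt_min (by linarith) (by positivity)
  have hεδ : ε ≤ δ / 22 := min_le_left _ _
  have hεR : 3 * ε * Real.exp (3 * R) ≤ 1 / 2 := by
    have : ε * (6 * Real.exp (3 * R)) ≤ 1 := by
      rw [← le_div_iff₀ (by positivity)]
      exact min_le_right _ _
    linarith
  refine ⟨ε, hε, m, fun N hN => ?_⟩
  have hNpos : 0 < N := lt_of_lt_of_le hmpos hN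
  have hcard := card_flat_le (m := m) (L := L) (x := x) hNpos hmpos hε.le (by linarith) hR hεR hmR
    hδ1 (by linarith) hd hdm hL hx hx1
  refine hcard.trans ?_
  have hNR : (0 : ℝ) < N := by exact_mod_cast hNpos
  have hWle : ((N / m + 1 : ℕ) : ℝ) ≤ 2 * (N : ℝ) / m := by
    have h1 : ((N / m : ℕ) : ℝ) ≤ (N : ℝ) / m := Nat.cast_div_le
    have h2 : (1 : ℝ) ≤ (N : ℝ) / m := by
      rw [le_div_iff₀ (by positivity), one_mul]
      exact_mod_cast hN
    push_cast
    rw [mul_div_assoc]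
    linarith
  have e1 : ((L : ℝ) + 1) ^ (2 * (N / m + 1)) ≤ Real.exp (τ / 3 * N) := by
    rw [← Real.rpow_natCast, Real.rpow_def_of_pos (by positivity), Real.exp_le_exp]
    have hlog : 0 ≤ Real.log ((L : ℝ) + 1) := Real.log_nonneg (by linarith [L.cast_nonneg (α := ℝ)])
    calc Real.log ((L : ℝ) + 1) * ((2 * (N / m + 1) : ℕ) : ℝ)
        = 2 * Real.log ((L : ℝ) + 1) * ((N / m + 1 : ℕ) : ℝ) := by push_cast; ring
      _ ≤ 2 * Real.log ((L : ℝ) + 1) * (2 * (N : ℝ) / m) := by gcongr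
      _ = 4 * Real.log ((L : ℝ) + 1) / m * N := by ring
      _ ≤ τ / 3 * N := by gcongr
  have e2 : x ^ (-((3 * δ) ^ 2 * N / 4)) ≤ Real.exp (τ / 3 * N) := by
    rw [Real.rpow_def_of_pos hx, Real.exp_le_exp]
    calc Real.log x * -((3 * δ) ^ 2 * N / 4) = (3 * δ) ^ 2 / 4 * -Real.log x * N := by ring
      _ ≤ τ / 3 * N := by gcongr
  have e3 : (1 + x) ^ N ≤ Real.exp (τ / 3 * N) := by
    calc (1 + x) ^ N ≤ Real.exp x ^ N := by
          gcongr
          linarith [Real.add_one_le_exp x]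
      _ = Real.exp (N * x) := (Real.exp_nat_mul x N).symm
      _ ≤ Real.exp (τ / 3 * N) := by
          rw [Real.exp_le_exp, mul_comm]
          gcongr
          exact min_le_left _ _
  calc ((L : ℝ) + 1) ^ (2 * (N / m + 1)) * (x ^ (-((3 * δ) ^ 2 * N / 4)) * (1 + x) ^ N)
      ≤ Real.exp (τ / 3 * N) * (Real.exp (τ / 3 * N) * Real.exp (τ / 3 * N)) := by gcongr
    _ = (2 : ℝ) ^ (η * N) := by
        rw [Real.rpow_def_of_pos two_pos, ← Real.exp_add, ← Real.exp_add, hτdef]
        ring_nf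

end Vale.Agent.Results.P110.UltraflatRare
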